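import Vale.Agent.P330.Acyc

/-! P330: easy acceptable assignments of generalized circuits. -/

namespace Vale.Agent.Results.P330.EasyAssignments

open Vale.Agent.P330 Finset

open Classical in
theorem result {V T : Type} [Fintype T] (C : Circuit V T) (ε : ℚ) (hε : 0 < ε) :
    -- large `ε`: one constant assignment satisfies every gate
    (1 / 2 ≤ ε → ∀ t, C.sat ε (fun _ => 1 / 2) t) ∧
    (ε < 1 / 2 →
      -- the zero assignment satisfies every gate that is not a constant or a negation
      (∀ t, ¬ C.constNot t → C.sat ε (fun _ => 0) t) ∧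
      -- the assignment `1 / 2` satisfies every gate that is not arithmetic
      (∀ t, ¬ C.arith t → C.sat ε (fun _ => 1 / 2) t) ∧
      -- acyclic sets of gates can be satisfied simultaneously, by multiples of `1 / (2 m)`
      (∀ m : ℕ, 1 ≤ ε * m → ∀ A : Finset T, C.Acyclic A →
        ∃ x : V → ℚ, OnGrid m x ∧ ∀ t ∈ A, C.sat ε x t) ∧
      -- every set of gates has an acyclic subset of at least a third of its size
      (∀ S : Finset T, ∃ A ⊆ S, C.Acyclic A ∧ S.card ≤ 3 * A.card) ∧
      -- at least three sevenths of all gates can be satisfied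
      ∀ m : ℕ, 1 ≤ ε * m → ∃ x : V → ℚ, OnGrid m x ∧
        3 * Fintype.card T ≤ 7 * (univ.filter fun t => C.sat ε x t).card) :=
  ⟨fun h t => sat_half_big C ε h t, fun h => ⟨fun t ht => sat_zero C ε hε h t ht,
    fun t ht => sat_half C ε hε h t ht, fun m hm A hA => eval C ε hε h m hm A hA, fun S => third C S,
    fun m hm => three_sevenths C ε hε h m hm⟩⟩

end Vale.Agent.Results.P330.EasyAssignments
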